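import Vale.Agent.P007.Bdl.B19

open MeasureTheory NumberField Filter Topology

namespace Vale.Agent.Results.P007.Full

open Vale.Agent.P007.F

/-- **Complete answer to Q1**: for `n ≥ 4` the assertion of Q1 holds in degree `n` if and only if `n`
is prime. In every composite degree it fails already for maximal orders and all orderings of the
embeddings. In every degree `n ≥ 2`, necessary conditions for the convergence of an arbitrary
sequence; in particular, for prime `n` the packet measures converge to the invariant probability if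
and only if the discriminants tend to infinity. Existence and uniqueness of the packet measures and
of the invariant probability. -/
theorem result :
    (∀ n : ℕ, 4 ≤ n → (Q1 n ↔ n.Prime)) ∧
    (∀ n : ℕ, 4 ≤ n → ¬ n.Prime →
      ∃ (K : ℕ → Type) (_ : ∀ i, Field (K i)) (_ : ∀ i, NumberField (K i)),
        (∀ i, IsTotallyReal (K i) ∧ Module.finrank ℚ (K i) = n) ∧
        Tendsto (fun i => |discr (K i)|) atTop atTop ∧
        ∃ Y : Set (X n), IsClosed Y ∧ (∀ m : Measure (X n), IsInvProb m → m Y = 0) ∧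
          ∀ (σ : ∀ i, Fin n ≃ (K i →+* ℝ)) (μ : ℕ → Measure (X n)),
            (∀ i, PacketMeas (K i) ⊤ (σ i) (μ i)) →
              (∀ i, μ i Y = 1) ∧ ∀ m, IsInvProb m → ¬ WeakTo μ m) ∧
    (∀ n : ℕ, 2 ≤ n → ∀ (K : ℕ → Type) [∀ i, Field (K i)] [∀ i, NumberField (K i)]
      (O : ∀ i, Subring (𝓞 (K i))) (σ : ∀ i, Fin n ≃ (K i →+* ℝ)) (μ : ℕ → Measure (X n))
      (m : Measure (X n)), (∀ i, PacketMeas (K i) (O i) (σ i) (μ i)) → IsInvProb m → WeakTo μ m →
      Tendsto (fun i => disc (K i) (O i)) atTop atTop ∧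
      ∀ B : ℝ, ∀ᶠ i in atTop, ∀ a ∈ O i, (∀ j, |σ i j a| ≤ B) → ∃ z : ℤ, a = z) ∧
    (∀ (n : ℕ) (K : Type) [Field K] [NumberField K] (O : Subring (𝓞 K)) (σ : Fin n ≃ (K →+* ℝ)),
      IsTriple K O σ → ∃ μ, IsProbabilityMeasure μ ∧ ∀ ν, PacketMeas K O σ ν ↔ ν = μ) ∧
    (∀ n : ℕ, 1 ≤ n → ∃! m : Measure (X n), IsInvProb m) := by
  exact ⟨Q1_iff, composite_fails, fun _ hn _ _ _ _ _ _ _ h hm hW => necessary hn h hm hW,
    fun _ _ _ _ _ _ h => exists_packetMeas h, exists_isInvProb⟩

end Vale.Agent.Results.P007.Full
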